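import Mathlib

/-!
# The Johnson lemma (J2) for the switch chain (S0453, WP-F part 1)

`K` = all `s`-subsets of a finite set `D`, `φ : K → ℝ`.  For a pair `c ≠ d` of `D` let
`sep c d A = 1` iff `A` separates `c` and `d`.  With
`N = |K|`, `S_cd = ∑_A φ A * sep c d A`, `P_cd = ∑_A sep c d A`, `Φ = ∑_A φ A`:

  `∑_{(c,d) ordered, c ≠ d} (N S_cd - Φ P_cd)^2 / (N^2 P_cd)
      ≤ (1/2) ∑_A ∑_{u ∈ A} ∑_{w ∈ D \ A} (φ A - φ (A - u + w))^2`.

(The left side is `2 ∑_{pairs p} |K| Cov_K(φ, χ_p)^2 / π_K`, the right side is the sum over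
unordered Johnson edges of `(dφ)^2`.)
-/

namespace Crest.Agent.Helper21.Switch

open Finset

section JohnsonTwo

variable {α : Type*} [DecidableEq α]

/-- `sep c d A = 1` iff exactly one of `c`, `d` lies in `A`, else `0`. -/
noncomputable def sep (c d : α) (A : Finset α) : ℝ := if (c ∈ A ↔ d ∈ A) then 0 else 1

/-- Exchange the memberships of `c` and `z`. -/
def tau (c z : α) (A : Finset α) : Finset α := A.map (Equiv.swap c z).toEmbedding

lemma sep_def (c d : α) (A : Finset α) : sep c d A = if (c ∈ A ↔ d ∈ A) then 0 else 1 := rfl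

lemma mem_tau {c z x : α} {A : Finset α} : x ∈ tau c z A ↔ Equiv.swap c z x ∈ A := by
  unfold tau; rw [Finset.mem_map_equiv, Equiv.symm_swap]

lemma sep_comm (c d : α) (A : Finset α) : sep c d A = sep d c A := by
  unfold sep; by_cases hc : c ∈ A <;> by_cases hd : d ∈ A <;> simp [hc, hd]

lemma sep_self (c : α) (A : Finset α) : sep c c A = 0 := by simp [sep]

lemma sep_nonneg (c d : α) (A : Finset α) : 0 ≤ sep c d A := by
  unfold sep; split_ifs <;> norm_num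

lemma sep_tau {c z d : α} (hdc : d ≠ c) (hdz : d ≠ z) (A : Finset α) :
    sep c d (tau c z A) = sep z d A := by
  unfold sep
  simp only [mem_tau, Equiv.swap_apply_left, Equiv.swap_apply_of_ne_of_ne hdc hdz]

lemma sep_tau' {c z d : α} (hdc : d ≠ c) (hdz : d ≠ z) (A : Finset α) :
    sep z d (tau c z A) = sep c d A := by
  unfold sep
  simp only [mem_tau, Equiv.swap_apply_right, Equiv.swap_apply_of_ne_of_ne hdc hdz]

lemma tau_tau (c z : α) (A : Finset α) : tau c z (tau c z A) = A := by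
  ext x; rw [mem_tau, mem_tau, Equiv.swap_apply_self]

lemma tau_mem {D : Finset α} {s : ℕ} {c z : α} (hc : c ∈ D) (hz : z ∈ D) {A : Finset α}
    (hA : A ∈ D.powersetCard s) : tau c z A ∈ D.powersetCard s := by
  rw [Finset.mem_powersetCard] at hA ⊢
  refine ⟨?_, ?_⟩
  · intro x hx
    rw [mem_tau] at hx
    have := hA.1 hx
    by_cases hxc : x = c
    · subst hxc; exact hc
    · by_cases hxz : x = z
      · subst hxz; exact hz
      · rwa [Equiv.swap_apply_of_ne_of_ne hxc hxz] at this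
  · unfold tau; rw [Finset.card_map]; exact hA.2

lemma sum_tau {D : Finset α} {s : ℕ} {c z : α} (hc : c ∈ D) (hz : z ∈ D) (g : Finset α → ℝ) :
    ∑ A ∈ D.powersetCard s, g (tau c z A) = ∑ A ∈ D.powersetCard s, g A := by
  refine Finset.sum_nbij' (tau c z) (tau c z) ?_ ?_ ?_ ?_ ?_
  · intro A hA; exact tau_mem hc hz hA
  · intro A hA; exact tau_mem hc hz hA
  · intro A _; exact tau_tau c z A
  · intro A _; exact tau_tau c z A
  · intro A _; rfl

lemma sumsep_first {D : Finset α} {s : ℕ} {c z d : α} (hc : c ∈ D) (hz : z ∈ D)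
    (hdc : d ≠ c) (hdz : d ≠ z) :
    ∑ A ∈ D.powersetCard s, sep c d A = ∑ A ∈ D.powersetCard s, sep z d A := by
  rw [← sum_tau hc hz (fun A => sep c d A)]
  exact Finset.sum_congr rfl (fun A _ => sep_tau hdc hdz A)

lemma sumsep_const {D : Finset α} {s : ℕ} {c d c' d' : α} (hc : c ∈ D) (hd : d ∈ D)
    (hc' : c' ∈ D) (hd' : d' ∈ D) (hcd : c ≠ d) (hcd' : c' ≠ d') :
    ∑ A ∈ D.powersetCard s, sep c d A = ∑ A ∈ D.powersetCard s, sep c' d' A := by
  have symm : ∀ x y, ∑ A ∈ D.powersetCard s, sep x y A = ∑ A ∈ D.powersetCard s, sep y x A :=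
    fun x y => Finset.sum_congr rfl (fun A _ => sep_comm x y A)
  by_cases h : c' = d
  · subst h
    rw [sumsep_first hc hd' hcd.symm hcd', symm]
  · rw [sumsep_first hc hc' hcd.symm (Ne.symm h), symm c' d, sumsep_first hd hd' h hcd', symm]

lemma sum_sep_eq {D : Finset α} {s : ℕ} {A : Finset α} (hA : A ∈ D.powersetCard s) :
    ∑ c ∈ D, ∑ d ∈ D, sep c d A = 2 * (s : ℝ) * ((D.card : ℝ) - s) := by
  rw [Finset.mem_powersetCard] at hA
  have hpt : ∀ c d, sep c d A = (if c ∈ A then (1:ℝ) else 0) * (1 - if d ∈ A then (1:ℝ) else 0)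
      + (1 - if c ∈ A then (1:ℝ) else 0) * (if d ∈ A then (1:ℝ) else 0) := by
    intro c d; unfold sep; by_cases hc : c ∈ A <;> by_cases hd : d ∈ A <;> simp [hc, hd]
  have hind : ∑ c ∈ D, (if c ∈ A then (1:ℝ) else 0) = s := by
    rw [Finset.sum_ite_mem, Finset.inter_eq_right.mpr hA.1]; simp [hA.2]
  simp only [hpt, Finset.sum_add_distrib, ← Finset.mul_sum, ← Finset.sum_mul, Finset.sum_sub_distrib,
    hind]
  simp only [Finset.sum_const, nsmul_eq_mul, mul_one]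
  ring

lemma tau_comm (c z : α) (A : Finset α) : tau c z A = tau z c A := by
  unfold tau; rw [Equiv.swap_comm]

lemma tau_of_mem_notMem {c z : α} {A : Finset α} (hc : c ∈ A) (hz : z ∉ A) :
    tau c z A = insert z (A.erase c) := by
  have hcz : c ≠ z := fun h => hz (h ▸ hc)
  ext x
  rw [mem_tau, Finset.mem_insert, Finset.mem_erase]
  by_cases hxc : x = c
  · subst hxc; rw [Equiv.swap_apply_left]
    simp [hz, hcz]
  · by_cases hxz : x = z
    · subst hxz; rw [Equiv.swap_apply_right]; simp [hc]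
    · rw [Equiv.swap_apply_of_ne_of_ne hxc hxz]; simp [hxc, hxz]

lemma tau_of_iff {c z : α} {A : Finset α} (h : c ∈ A ↔ z ∈ A) : tau c z A = A := by
  ext x; rw [mem_tau]
  by_cases hxc : x = c
  · subst hxc; rw [Equiv.swap_apply_left]; exact h.symm
  · by_cases hxz : x = z
    · subst hxz; rw [Equiv.swap_apply_right]; exact h
    · rw [Equiv.swap_apply_of_ne_of_ne hxc hxz]

/-- Cauchy–Schwarz step: moving the first index of the pair. -/
lemma sumsep_diff_sq_le {D : Finset α} {s : ℕ} (φ : Finset α → ℝ) {c z d : α} (hc : c ∈ D)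
    (hz : z ∈ D) (hdc : d ≠ c) (hdz : d ≠ z) :
    ((∑ A ∈ D.powersetCard s, φ A * sep c d A) - (∑ A ∈ D.powersetCard s, φ A * sep z d A)) ^ 2
      ≤ (1 / 4) * (∑ A ∈ D.powersetCard s, (φ A - φ (tau c z A)) ^ 2)
          * (∑ A ∈ D.powersetCard s, sep c z A) := by
  set K := D.powersetCard s
  have h1 : ∑ A ∈ K, φ (tau c z A) * sep c d A = ∑ A ∈ K, φ A * sep z d A := by
    rw [← sum_tau hc hz (fun A => φ A * sep z d A)]
    refine Finset.sum_congr rfl (fun A _ => ?_)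
    show φ (tau c z A) * sep c d A = φ (tau c z A) * sep z d (tau c z A)
    rw [sep_tau' hdc hdz]
  have h2 : ∑ A ∈ K, φ (tau c z A) * sep z d A = ∑ A ∈ K, φ A * sep c d A := by
    rw [← sum_tau hc hz (fun A => φ A * sep c d A)]
    refine Finset.sum_congr rfl (fun A _ => ?_)
    show φ (tau c z A) * sep z d A = φ (tau c z A) * sep c d (tau c z A)
    rw [sep_tau hdc hdz]
  have h3 : ∑ A ∈ K, (φ A - φ (tau c z A)) * (sep c d A - sep z d A)
      = 2 * ((∑ A ∈ K, φ A * sep c d A) - (∑ A ∈ K, φ A * sep z d A)) := by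
    have : ∀ A, (φ A - φ (tau c z A)) * (sep c d A - sep z d A)
        = φ A * sep c d A - φ A * sep z d A - φ (tau c z A) * sep c d A
          + φ (tau c z A) * sep z d A := fun A => by ring
    simp only [this, Finset.sum_add_distrib, Finset.sum_sub_distrib, h1, h2]; ring
  have h4 : (∑ A ∈ K, (φ A - φ (tau c z A)) * (sep c d A - sep z d A)) ^ 2
      ≤ (∑ A ∈ K, (φ A - φ (tau c z A)) ^ 2) * (∑ A ∈ K, (sep c d A - sep z d A) ^ 2) :=
    Finset.sum_mul_sq_le_sq_mul_sq _ _ _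
  have h5 : ∑ A ∈ K, (sep c d A - sep z d A) ^ 2 ≤ ∑ A ∈ K, sep c z A := by
    refine Finset.sum_le_sum (fun A _ => ?_)
    unfold sep
    by_cases h1 : c ∈ A <;> by_cases h2 : z ∈ A <;> by_cases h3 : d ∈ A <;> simp [h1, h2, h3]
  have h6 : 0 ≤ ∑ A ∈ K, (φ A - φ (tau c z A)) ^ 2 := Finset.sum_nonneg (fun A _ => sq_nonneg _)
  rw [h3] at h4
  nlinarith [mul_le_mul_of_nonneg_left h5 h6]

/-- Spectral gap `t` of the graph on pairs (`J(t,2)`), in the sum-zero form. -/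
lemma pair_poincare (D : Finset α) (k : α → α → ℝ) (hsymm : ∀ c d, k c d = k d c)
    (hdiag : ∀ c, k c c = 0) (hsum : ∑ c ∈ D, ∑ d ∈ D, k c d = 0) :
    (D.card : ℝ) * ∑ c ∈ D, ∑ d ∈ D, k c d ^ 2 ≤
      ∑ d ∈ D, ∑ c ∈ D, ∑ z ∈ D, (if c ≠ d ∧ z ≠ d then (k c d - k z d) ^ 2 else 0) := by
  set t : ℝ := (D.card : ℝ) with ht
  set r : α → ℝ := fun d => ∑ c ∈ D, k c d with hr
  set S₂ : ℝ := ∑ c ∈ D, ∑ d ∈ D, k c d ^ 2 with hS₂
  set Q : ℝ := ∑ d ∈ D, r d ^ 2 with hQ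
  have hrsum : ∑ d ∈ D, r d = 0 := by
    simp only [hr]; rw [Finset.sum_comm]; exact hsum
  have hr' : ∀ c, ∑ d ∈ D, k c d = r c := fun c => by
    simp only [hr]; exact Finset.sum_congr rfl (fun d _ => hsymm c d)
  have hS₂' : ∑ d ∈ D, ∑ c ∈ D, k c d ^ 2 = S₂ := Finset.sum_comm
  have hS₂0 : 0 ≤ S₂ := Finset.sum_nonneg (fun c _ => Finset.sum_nonneg (fun d _ => sq_nonneg _))
  have hcnt : ∀ d ∈ D, ∑ z ∈ D, (if z ≠ d then (1:ℝ) else 0) = t - 1 := by
    intro d hd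
    have : ∀ z, (if z ≠ d then (1:ℝ) else 0) = 1 - (if z = d then 1 else 0) := by
      intro z; by_cases h : z = d <;> simp [h]
    simp only [this, Finset.sum_sub_distrib, Finset.sum_ite_eq', hd, if_true, Finset.sum_const,
      nsmul_eq_mul, mul_one, ht]
  -- the right side
  have hRHS : ∑ d ∈ D, ∑ c ∈ D, ∑ z ∈ D, (if c ≠ d ∧ z ≠ d then (k c d - k z d) ^ 2 else 0)
      = 2 * (t - 1) * S₂ - 2 * Q := by
    have h1 : ∀ d ∈ D, ∑ c ∈ D, ∑ z ∈ D, (if c ≠ d ∧ z ≠ d then (k c d - k z d) ^ 2 else 0)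
        = 2 * (t - 1) * ∑ c ∈ D, k c d ^ 2 - 2 * r d ^ 2 := by
      intro d hd
      have hpt : ∀ c z, (if c ≠ d ∧ z ≠ d then (k c d - k z d) ^ 2 else 0)
          = k c d ^ 2 * (if z ≠ d then (1:ℝ) else 0) - 2 * (k c d * k z d)
            + (if c ≠ d then (1:ℝ) else 0) * k z d ^ 2 := by
        intro c z
        by_cases hc : c = d
        · subst hc; simp [hdiag]
        · by_cases hz : z = d
          · subst hz; simp [hdiag]
          · simp [hc, hz]; ring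
      simp only [hpt, Finset.sum_add_distrib, Finset.sum_sub_distrib, ← Finset.mul_sum,
        ← Finset.sum_mul, hcnt d hd]
      simp only [hr]
      ring
    rw [Finset.sum_congr rfl h1, Finset.sum_sub_distrib, ← Finset.mul_sum, ← Finset.mul_sum, hS₂']
  rw [hRHS]
  -- the sum of squares
  have hSOS : 0 ≤ ∑ c ∈ D, ∑ d ∈ D,
      (if c ≠ d then ((t - 2) * k c d - (r c + r d)) ^ 2 else 0) :=
    Finset.sum_nonneg (fun c _ => Finset.sum_nonneg (fun d _ => by split_ifs <;> positivity))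
  have hSOSeq : ∑ c ∈ D, ∑ d ∈ D, (if c ≠ d then ((t - 2) * k c d - (r c + r d)) ^ 2 else 0)
      = (t - 2) * ((t - 2) * S₂ - 2 * Q) := by
    have hpt : ∀ c d, (if c ≠ d then ((t - 2) * k c d - (r c + r d)) ^ 2 else 0)
        = (t - 2) ^ 2 * k c d ^ 2 - 2 * (t - 2) * (r c * k c d) - 2 * (t - 2) * (k c d * r d)
          + (r c ^ 2 + 2 * (r c * r d) + r d ^ 2) - (if c = d then 4 * r d ^ 2 else 0) := by
      intro c d
      by_cases h : c = d
      · subst h; simp [hdiag]; ring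
      · simp [h]; ring
    simp only [hpt, Finset.sum_add_distrib, Finset.sum_sub_distrib, ← Finset.mul_sum,
      ← Finset.sum_mul, Finset.sum_ite_eq, hr', hrsum]
    have e1 : ∑ c ∈ D, ∑ d ∈ D, k c d * r d = Q := by
      rw [Finset.sum_comm]
      refine Finset.sum_congr rfl (fun d _ => ?_)
      rw [← Finset.sum_mul]; simp only [hr]; ring
    have e2 : ∑ c ∈ D, r c * r c = Q := Finset.sum_congr rfl (fun c _ => by ring)
    have e3 : ∑ c ∈ D, (if c ∈ D then 4 * r c ^ 2 else 0) = 4 * Q := by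
      rw [hQ, Finset.mul_sum]
      exact Finset.sum_congr rfl (fun c hc => by simp [hc])
    have e4 : ∑ x ∈ D, ∑ _x₁ ∈ D, r x ^ 2 = t * Q := by
      simp only [Finset.sum_const, nsmul_eq_mul, ← Finset.mul_sum, ht]
      rw [hQ]
    have e5 : ∑ _x ∈ D, ∑ x₁ ∈ D, r x₁ ^ 2 = t * Q := by
      simp only [Finset.sum_const, nsmul_eq_mul, ht]
      rw [hQ]
    rw [e1, e2, e3, e4, e5, ← hS₂]
    ring
  rw [hSOSeq] at hSOS
  by_cases h3 : 3 ≤ D.card
  · have h3' : (0:ℝ) < t - 2 := by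
      have : (3:ℝ) ≤ t := by rw [ht]; exact_mod_cast h3
      linarith
    have := nonneg_of_mul_nonneg_right hSOS h3'
    linarith
  · have hk0 : ∀ c ∈ D, ∀ d ∈ D, k c d = 0 := by
      intro c hc d hd
      by_cases hcd : c = d
      · subst hcd; exact hdiag c
      · have hD : ({c, d} : Finset α) = D := by
          apply Finset.eq_of_subset_of_card_le
          · intro x hx
            simp only [Finset.mem_insert, Finset.mem_singleton] at hx
            rcases hx with rfl | rfl <;> assumption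
          · rw [Finset.card_pair hcd]; omega
        rw [← hD, Finset.sum_pair hcd, Finset.sum_pair hcd, Finset.sum_pair hcd] at hsum
        rw [hdiag, hdiag, hsymm d c] at hsum
        linarith
    have hS0 : S₂ = 0 :=
      Finset.sum_eq_zero (fun c hc => Finset.sum_eq_zero (fun d hd => by
        rw [hk0 c hc d hd]; ring))
    have hQ0 : Q = 0 :=
      Finset.sum_eq_zero (fun d hd => by
        simp only [hr]; rw [Finset.sum_eq_zero (fun c hc => hk0 c hc d hd)]; ring)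
    rw [hS0, hQ0]; simp

/-- The `tau`-differences, summed over ordered pairs, count every Johnson edge twice. -/
lemma sum_tau_edges {D : Finset α} {s : ℕ} (φ : Finset α → ℝ) :
    ∑ c ∈ D, ∑ z ∈ D, ∑ A ∈ D.powersetCard s, (φ A - φ (tau c z A)) ^ 2
      = 2 * ∑ A ∈ D.powersetCard s, ∑ u ∈ A, ∑ w ∈ D \ A,
          (φ A - φ (insert w (A.erase u))) ^ 2 := by
  have h1 : ∑ c ∈ D, ∑ z ∈ D, ∑ A ∈ D.powersetCard s, (φ A - φ (tau c z A)) ^ 2
      = ∑ A ∈ D.powersetCard s, ∑ c ∈ D, ∑ z ∈ D, (φ A - φ (tau c z A)) ^ 2 := by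
    calc ∑ c ∈ D, ∑ z ∈ D, ∑ A ∈ D.powersetCard s, (φ A - φ (tau c z A)) ^ 2
        = ∑ c ∈ D, ∑ A ∈ D.powersetCard s, ∑ z ∈ D, (φ A - φ (tau c z A)) ^ 2 :=
          Finset.sum_congr rfl (fun c _ => Finset.sum_comm)
      _ = ∑ A ∈ D.powersetCard s, ∑ c ∈ D, ∑ z ∈ D, (φ A - φ (tau c z A)) ^ 2 :=
          Finset.sum_comm
  rw [h1, Finset.mul_sum]
  refine Finset.sum_congr rfl (fun A hA => ?_)
  rw [Finset.mem_powersetCard] at hA
  have hpt : ∀ c z, (φ A - φ (tau c z A)) ^ 2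
      = (if c ∈ A then (if z ∉ A then (φ A - φ (insert z (A.erase c))) ^ 2 else 0) else 0)
        + (if z ∈ A then (if c ∉ A then (φ A - φ (insert c (A.erase z))) ^ 2 else 0) else 0) := by
    intro c z
    by_cases hc : c ∈ A
    · by_cases hz : z ∈ A
      · rw [tau_of_iff (by simp [hc, hz])]; simp [hc, hz]
      · rw [tau_of_mem_notMem hc hz]; simp [hc, hz]
    · by_cases hz : z ∈ A
      · rw [tau_comm, tau_of_mem_notMem hz hc]; simp [hc, hz]
      · rw [tau_of_iff (by simp [hc, hz])]; simp [hc, hz]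
  have hA1 : ∀ F : α → ℝ, ∑ c ∈ D, (if c ∈ A then F c else 0) = ∑ c ∈ A, F c := by
    intro F
    rw [← Finset.sum_filter, Finset.filter_mem_eq_inter, Finset.inter_eq_right.mpr hA.1]
  have hA2 : ∀ F : α → ℝ, ∑ c ∈ D, (if c ∉ A then F c else 0) = ∑ c ∈ D \ A, F c := by
    intro F
    rw [← Finset.sum_filter, Finset.filter_notMem_eq_sdiff]
  simp only [hpt, Finset.sum_add_distrib]
  have e1 : ∑ c ∈ D, ∑ z ∈ D,
      (if c ∈ A then (if z ∉ A then (φ A - φ (insert z (A.erase c))) ^ 2 else 0) else 0)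
      = ∑ u ∈ A, ∑ w ∈ D \ A, (φ A - φ (insert w (A.erase u))) ^ 2 := by
    rw [← hA1 (fun u => ∑ w ∈ D \ A, (φ A - φ (insert w (A.erase u))) ^ 2)]
    refine Finset.sum_congr rfl (fun c _ => ?_)
    by_cases hc : c ∈ A
    · simp only [hc, if_true]
      exact hA2 (fun z => (φ A - φ (insert z (A.erase c))) ^ 2)
    · simp [hc]
  have e2 : ∑ c ∈ D, ∑ z ∈ D,
      (if z ∈ A then (if c ∉ A then (φ A - φ (insert c (A.erase z))) ^ 2 else 0) else 0)
      = ∑ u ∈ A, ∑ w ∈ D \ A, (φ A - φ (insert w (A.erase u))) ^ 2 := by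
    rw [Finset.sum_comm]; exact e1
  rw [e1, e2]; ring

lemma sum_offDiag_eq (D : Finset α) (F : α → α → ℝ) (hF : ∀ c, F c c = 0) :
    ∑ x ∈ D.offDiag, F x.1 x.2 = ∑ c ∈ D, ∑ d ∈ D, F c d := by
  have h : D.offDiag = (D ×ˢ D).filter (fun x : α × α => x.1 ≠ x.2) := by
    ext x; simp [Finset.mem_offDiag, and_assoc]
  rw [h, Finset.sum_filter, Finset.sum_product]
  refine Finset.sum_congr rfl (fun c _ => Finset.sum_congr rfl (fun d _ => ?_))
  by_cases hcd : c = d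
  · subst hcd; simp [hF]
  · simp [hcd]

/-- **Johnson lemma (J2)**, ordered-pair form with all normalisations cleared. -/
theorem johnson_two (D : Finset α) (s : ℕ) (φ : Finset α → ℝ) :
    ∑ x ∈ D.offDiag,
        (((D.powersetCard s).card : ℝ) * (∑ A ∈ D.powersetCard s, φ A * sep x.1 x.2 A)
          - (∑ A ∈ D.powersetCard s, φ A) * (∑ A ∈ D.powersetCard s, sep x.1 x.2 A)) ^ 2
        / (((D.powersetCard s).card : ℝ) ^ 2 * (∑ A ∈ D.powersetCard s, sep x.1 x.2 A))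
      ≤ (1 / 2) * ∑ A ∈ D.powersetCard s, ∑ u ∈ A, ∑ w ∈ D \ A,
          (φ A - φ (insert w (A.erase u))) ^ 2 := by
  classical
  set K := D.powersetCard s with hK
  set N : ℝ := (K.card : ℝ) with hN
  set Φ : ℝ := ∑ A ∈ K, φ A with hΦ
  set E : ℝ := ∑ A ∈ K, ∑ u ∈ A, ∑ w ∈ D \ A, (φ A - φ (insert w (A.erase u))) ^ 2 with hE
  have hE0 : 0 ≤ E := Finset.sum_nonneg (fun A _ => Finset.sum_nonneg (fun u _ =>
    Finset.sum_nonneg (fun w _ => sq_nonneg _)))
  rcases Finset.eq_empty_or_nonempty D.offDiag with hemp | ⟨⟨c₀, d₀⟩, h₀⟩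
  · rw [hemp, Finset.sum_empty]; positivity
  rw [Finset.mem_offDiag] at h₀
  obtain ⟨hc₀, hd₀, hcd₀⟩ := h₀
  set P : ℝ := ∑ A ∈ K, sep c₀ d₀ A with hP
  have hPconst : ∀ c ∈ D, ∀ d ∈ D, c ≠ d → ∑ A ∈ K, sep c d A = P :=
    fun c hc d hd hcd => sumsep_const hc hd hc₀ hd₀ hcd hcd₀
  have hP0 : 0 ≤ P := Finset.sum_nonneg (fun A _ => sep_nonneg _ _ _)
  set κ : α → α → ℝ := fun c d => N * (∑ A ∈ K, φ A * sep c d A) - Φ * (∑ A ∈ K, sep c d A)
    with hκ
  have hsymm : ∀ c d, κ c d = κ d c := by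
    intro c d; simp only [hκ, sep_comm c d]
  have hdiag : ∀ c, κ c c = 0 := by
    intro c; simp [hκ, sep_self]
  -- the left side
  have hLHS : ∑ x ∈ D.offDiag, (N * (∑ A ∈ K, φ A * sep x.1 x.2 A)
      - Φ * (∑ A ∈ K, sep x.1 x.2 A)) ^ 2 / (N ^ 2 * (∑ A ∈ K, sep x.1 x.2 A))
      = (∑ c ∈ D, ∑ d ∈ D, κ c d ^ 2) / (N ^ 2 * P) := by
    have h1 : ∑ x ∈ D.offDiag, (N * (∑ A ∈ K, φ A * sep x.1 x.2 A)
        - Φ * (∑ A ∈ K, sep x.1 x.2 A)) ^ 2 / (N ^ 2 * (∑ A ∈ K, sep x.1 x.2 A))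
        = ∑ x ∈ D.offDiag, κ x.1 x.2 ^ 2 / (N ^ 2 * P) := by
      refine Finset.sum_congr rfl (fun x hx => ?_)
      rw [Finset.mem_offDiag] at hx
      simp only [hκ]
      rw [hPconst x.1 hx.1 x.2 hx.2.1 hx.2.2]
    rw [h1, ← Finset.sum_div, sum_offDiag_eq D (fun c d => κ c d ^ 2)
      (fun c => by rw [hdiag]; ring)]
  rw [hLHS]
  -- sum of κ is zero
  have hsum0 : ∑ c ∈ D, ∑ d ∈ D, κ c d = 0 := by
    set M : ℝ := 2 * (s : ℝ) * ((D.card : ℝ) - s) with hM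
    have h1 : ∑ c ∈ D, ∑ d ∈ D, ∑ A ∈ K, φ A * sep c d A = M * Φ := by
      calc ∑ c ∈ D, ∑ d ∈ D, ∑ A ∈ K, φ A * sep c d A
          = ∑ c ∈ D, ∑ A ∈ K, ∑ d ∈ D, φ A * sep c d A :=
            Finset.sum_congr rfl (fun c _ => Finset.sum_comm)
        _ = ∑ A ∈ K, ∑ c ∈ D, ∑ d ∈ D, φ A * sep c d A := Finset.sum_comm
        _ = ∑ A ∈ K, φ A * M := Finset.sum_congr rfl (fun A hA => by
            simp only [← Finset.mul_sum]; rw [sum_sep_eq hA])
        _ = M * Φ := by rw [← Finset.sum_mul]; ring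
    have h2 : ∑ c ∈ D, ∑ d ∈ D, ∑ A ∈ K, sep c d A = N * M := by
      calc ∑ c ∈ D, ∑ d ∈ D, ∑ A ∈ K, sep c d A
          = ∑ c ∈ D, ∑ A ∈ K, ∑ d ∈ D, sep c d A :=
            Finset.sum_congr rfl (fun c _ => Finset.sum_comm)
        _ = ∑ A ∈ K, ∑ c ∈ D, ∑ d ∈ D, sep c d A := Finset.sum_comm
        _ = ∑ A ∈ K, M := Finset.sum_congr rfl (fun A hA => sum_sep_eq hA)
        _ = N * M := by rw [Finset.sum_const, nsmul_eq_mul]
    simp only [hκ, Finset.sum_sub_distrib, ← Finset.mul_sum, h1, h2]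
    ring
  have hPP := pair_poincare D κ hsymm hdiag hsum0
  -- bound each term
  have hterm : ∀ d ∈ D, ∀ c ∈ D, ∀ z ∈ D,
      (if c ≠ d ∧ z ≠ d then (κ c d - κ z d) ^ 2 else 0)
        ≤ N ^ 2 * (P / 4) * ∑ A ∈ K, (φ A - φ (tau c z A)) ^ 2 := by
    intro d hd c hc z hz
    have hnn : 0 ≤ N ^ 2 * (P / 4) * ∑ A ∈ K, (φ A - φ (tau c z A)) ^ 2 :=
      mul_nonneg (mul_nonneg (sq_nonneg _) (by linarith))
        (Finset.sum_nonneg (fun A _ => sq_nonneg _))
    split_ifs with h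
    · obtain ⟨hcd, hzd⟩ := h
      by_cases hcz : c = z
      · subst hcz; simpa using hnn
      · have h1 := sumsep_diff_sq_le (s := s) φ hc hz (Ne.symm hcd) (Ne.symm hzd)
        rw [hPconst c hc z hz hcz] at h1
        have h2 : κ c d - κ z d
            = N * ((∑ A ∈ K, φ A * sep c d A) - (∑ A ∈ K, φ A * sep z d A)) := by
          simp only [hκ]; rw [hPconst c hc d hd hcd, hPconst z hz d hd hzd]; ring
        rw [h2, mul_pow]
        have hN2 : 0 ≤ N ^ 2 := sq_nonneg _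
        nlinarith [mul_le_mul_of_nonneg_left h1 hN2]
    · exact hnn
  have hbound : ∑ d ∈ D, ∑ c ∈ D, ∑ z ∈ D,
      (if c ≠ d ∧ z ≠ d then (κ c d - κ z d) ^ 2 else 0)
        ≤ (D.card : ℝ) * (N ^ 2 * (P / 4) * (2 * E)) := by
    calc ∑ d ∈ D, ∑ c ∈ D, ∑ z ∈ D, (if c ≠ d ∧ z ≠ d then (κ c d - κ z d) ^ 2 else 0)
        ≤ ∑ d ∈ D, ∑ c ∈ D, ∑ z ∈ D, N ^ 2 * (P / 4) * ∑ A ∈ K, (φ A - φ (tau c z A)) ^ 2 :=
          Finset.sum_le_sum (fun d hd => Finset.sum_le_sum (fun c hc =>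
            Finset.sum_le_sum (fun z hz => hterm d hd c hc z hz)))
      _ = (D.card : ℝ) * (N ^ 2 * (P / 4) * (2 * E)) := by
          rw [Finset.sum_const, nsmul_eq_mul]
          simp only [← Finset.mul_sum]
          rw [sum_tau_edges]
  have ht0 : (0:ℝ) < (D.card : ℝ) := by
    have : D.Nonempty := ⟨c₀, hc₀⟩
    exact_mod_cast Finset.card_pos.mpr this
  have hS₂ : ∑ c ∈ D, ∑ d ∈ D, κ c d ^ 2 ≤ N ^ 2 * (P / 4) * (2 * E) :=
    le_of_mul_le_mul_left (hPP.trans hbound) ht0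
  by_cases hden : N ^ 2 * P = 0
  · rw [hden, div_zero]; positivity
  · have hden' : 0 < N ^ 2 * P :=
      lt_of_le_of_ne (mul_nonneg (sq_nonneg _) hP0) (Ne.symm hden)
    rw [div_le_iff₀ hden']
    linarith

end JohnsonTwo

end Crest.Agent.Helper21.Switch
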