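import Crest.Agent.Helper21.Switch.JohnsonTwo
import Crest.Agent.Helper87.SW.ClassJohnson

/-!
# Bridge: `johnson_two` discharges helper87's hypothesis `JohnsonTwo α`

So `Crest.Agent.Helper87.SW.class_bound (johnsonTwo_helper87 α) ...` is hypothesis-free.
-/

namespace Crest.Agent.Helper21.Switch

theorem johnsonTwo_helper87 (α : Type*) [DecidableEq α] : Crest.Agent.Helper87.SW.JohnsonTwo α :=
  fun D s φ => johnson_two D s φ

end Crest.Agent.Helper21.Switch
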