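import Mathlib

/-!
# Extremal generalized eigenpairs of a symmetric bilinear form (elementary Rayleigh argument)

For symmetric bilinear forms `a`, `b` on a finite-dimensional real vector space with `b` positive
definite there are `c ≠ 0` and `μ` with `a c y = μ * b c y` for all `y` and
`μ * b x x ≤ a x x` for all `x`.  Only compactness of the unit sphere and a one-variable
quadratic argument are used.
-/

set_option autoImplicit false

namespace Crest.Agent.Helper21.Switch

open Finset

section Pi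

variable {ι : Type*} [Fintype ι]

private lemma bilin_apply_eq_sum (a : LinearMap.BilinForm ℝ (ι → ℝ)) [DecidableEq ι]
    (x y : ι → ℝ) :
    a x y = ∑ i, ∑ j, x i * y j * a (Pi.single i 1) (Pi.single j 1) := by
  have hx : x = ∑ i, x i • (Pi.single i (1 : ℝ) : ι → ℝ) := by
    funext k
    simp [Finset.sum_apply, Pi.single_apply]
  have hy : y = ∑ j, y j • (Pi.single j (1 : ℝ) : ι → ℝ) := by
    funext k
    simp [Finset.sum_apply, Pi.single_apply]
  conv_lhs => rw [hx, hy]
  simp only [map_sum, LinearMap.sum_apply, map_smul, LinearMap.smul_apply, smul_eq_mul]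
  rw [Finset.sum_comm]
  refine Finset.sum_congr rfl fun i _ => ?_
  rw [Finset.mul_sum]
  refine Finset.sum_congr rfl fun j _ => ?_
  ring

private lemma continuous_bilin_self (a : LinearMap.BilinForm ℝ (ι → ℝ)) :
    Continuous fun x : ι → ℝ => a x x := by
  classical
  have : (fun x : ι → ℝ => a x x) =
      fun x => ∑ i, ∑ j, x i * x j * a (Pi.single i 1) (Pi.single j 1) := by
    funext x; exact bilin_apply_eq_sum a x x
  rw [this]
  fun_prop

/-- Minimal generalized eigenpair on `ι → ℝ`. -/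
theorem exists_min_eigenpair_pi [Nonempty ι] (a b : LinearMap.BilinForm ℝ (ι → ℝ))
    (ha : ∀ x y, a x y = a y x) (hb : ∀ x y, b x y = b y x)
    (hbpos : ∀ x, x ≠ 0 → 0 < b x x) :
    ∃ (c : ι → ℝ) (μ : ℝ), c ≠ 0 ∧ (∀ y, a c y = μ * b c y) ∧ ∀ x, μ * b x x ≤ a x x := by
  classical
  -- minimise the Rayleigh quotient on the unit sphere
  have hcomp : IsCompact (Metric.sphere (0 : ι → ℝ) 1) := isCompact_sphere _ _
  have hne : (Metric.sphere (0 : ι → ℝ) 1).Nonempty := by
    obtain ⟨i⟩ := ‹Nonempty ι›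
    refine ⟨Pi.single i 1, ?_⟩
    simp [Pi.norm_single]
  have hcont : ContinuousOn (fun x : ι → ℝ => a x x / b x x) (Metric.sphere (0 : ι → ℝ) 1) := by
    refine ContinuousOn.div (continuous_bilin_self a).continuousOn
      (continuous_bilin_self b).continuousOn ?_
    intro x hx
    have hx0 : x ≠ 0 := by
      intro h; rw [h] at hx; simp at hx
    exact (hbpos x hx0).ne'
  obtain ⟨c, hc, hmin⟩ := hcomp.exists_isMinOn hne hcont
  have hc0 : c ≠ 0 := by
    intro h; rw [h] at hc; simp at hc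
  set μ : ℝ := a c c / b c c with hμ
  have hbc : 0 < b c c := hbpos c hc0
  -- global inequality
  have hglob : ∀ x, μ * b x x ≤ a x x := by
    intro x
    by_cases hx0 : x = 0
    · subst hx0; simp
    have hnx : 0 < ‖x‖ := norm_pos_iff.mpr hx0
    have hmem : (‖x‖⁻¹ • x) ∈ Metric.sphere (0 : ι → ℝ) 1 := by
      rw [mem_sphere_zero_iff_norm, norm_smul, norm_inv, norm_norm, inv_mul_cancel₀ hnx.ne']
    have h1 : a c c / b c c ≤
        a (‖x‖⁻¹ • x) (‖x‖⁻¹ • x) / b (‖x‖⁻¹ • x) (‖x‖⁻¹ • x) := hmin hmem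
    simp only [map_smul, LinearMap.smul_apply, smul_eq_mul] at h1
    have hbx : 0 < b x x := hbpos x hx0
    have h2 : a c c / b c c ≤ a x x / b x x := by
      have : (‖x‖⁻¹ * (‖x‖⁻¹ * a x x)) / (‖x‖⁻¹ * (‖x‖⁻¹ * b x x)) = a x x / b x x := by
        have hi : ‖x‖⁻¹ ≠ 0 := inv_ne_zero hnx.ne'
        field_simp
      rw [← this]; exact h1
    rw [← hμ] at h2
    rw [le_div_iff₀ hbx] at h2
    exact h2
  have hqc : a c c - μ * b c c = 0 := by
    rw [hμ]; field_simp; ring
  refine ⟨c, μ, hc0, ?_, hglob⟩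
  intro y
  by_contra hne'
  set s : ℝ := a c y - μ * b c y with hs
  have hs0 : s ≠ 0 := fun h => hne' (by linarith [h])
  set q : ℝ := a y y - μ * b y y with hq
  have hq0 : 0 ≤ q := by have := hglob y; linarith
  set ε : ℝ := -s / (q + 1) with hε
  have hexp : a (c + ε • y) (c + ε • y) - μ * b (c + ε • y) (c + ε • y) =
      (a c c - μ * b c c) + 2 * ε * s + ε ^ 2 * q := by
    simp only [map_add, map_smul, LinearMap.add_apply, LinearMap.smul_apply, smul_eq_mul]
    rw [ha y c, hb y c]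
    ring
  have hge : 0 ≤ a (c + ε • y) (c + ε • y) - μ * b (c + ε • y) (c + ε • y) := by
    have := hglob (c + ε • y); linarith
  rw [hexp, hqc] at hge
  have hq1 : 0 < q + 1 := by linarith
  have hval : 2 * ε * s + ε ^ 2 * q = - s ^ 2 * (q + 2) / (q + 1) ^ 2 := by
    rw [hε]; field_simp; ring
  have hneg : - s ^ 2 * (q + 2) / (q + 1) ^ 2 < 0 := by
    apply div_neg_of_neg_of_pos
    · have : 0 < s ^ 2 := by positivity
      nlinarith
    · positivity
  linarith

end Pi

/-- **Minimal generalized eigenpair.** For symmetric bilinear forms `a`, `b` on a nontrivial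
finite-dimensional real vector space with `b` positive definite, there are `c ≠ 0` and `μ` with
`a c y = μ * b c y` for all `y` and `μ * b x x ≤ a x x` for all `x`. -/
theorem exists_min_eigenpair {V : Type*} [AddCommGroup V] [Module ℝ V] [FiniteDimensional ℝ V]
    [Nontrivial V] (a b : LinearMap.BilinForm ℝ V)
    (ha : ∀ x y, a x y = a y x) (hb : ∀ x y, b x y = b y x)
    (hbpos : ∀ x, x ≠ 0 → 0 < b x x) :
    ∃ (c : V) (μ : ℝ), c ≠ 0 ∧ (∀ y, a c y = μ * b c y) ∧ ∀ x, μ * b x x ≤ a x x := by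
  classical
  let bas := Module.finBasis ℝ V
  let e : V ≃ₗ[ℝ] (Fin (Module.finrank ℝ V) → ℝ) := bas.equivFun
  have hpos : 0 < Module.finrank ℝ V := Module.finrank_pos
  have : Nonempty (Fin (Module.finrank ℝ V)) := ⟨⟨0, hpos⟩⟩
  let a' : LinearMap.BilinForm ℝ (Fin (Module.finrank ℝ V) → ℝ) :=
    a.compl₁₂ (e.symm : _ →ₗ[ℝ] V) (e.symm : _ →ₗ[ℝ] V)
  let b' : LinearMap.BilinForm ℝ (Fin (Module.finrank ℝ V) → ℝ) :=
    b.compl₁₂ (e.symm : _ →ₗ[ℝ] V) (e.symm : _ →ₗ[ℝ] V)
  have ha' : ∀ x y, a' x y = a (e.symm x) (e.symm y) := fun x y => rfl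
  have hb' : ∀ x y, b' x y = b (e.symm x) (e.symm y) := fun x y => rfl
  obtain ⟨c, μ, hc0, hc, hglob⟩ := exists_min_eigenpair_pi a' b'
    (fun x y => by rw [ha', ha', ha]) (fun x y => by rw [hb', hb', hb])
    (fun x hx => by
      rw [hb']
      exact hbpos _ (by simpa using hx))
  refine ⟨e.symm c, μ, by simpa using hc0, ?_, ?_⟩
  · intro y
    have := hc (e y)
    rw [ha', hb'] at this
    simpa using this
  · intro x
    have := hglob (e x)
    rw [ha', hb'] at this
    simpa using this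

/-- Maximal version. -/
theorem exists_max_eigenpair {V : Type*} [AddCommGroup V] [Module ℝ V] [FiniteDimensional ℝ V]
    [Nontrivial V] (a b : LinearMap.BilinForm ℝ V)
    (ha : ∀ x y, a x y = a y x) (hb : ∀ x y, b x y = b y x)
    (hbpos : ∀ x, x ≠ 0 → 0 < b x x) :
    ∃ (c : V) (μ : ℝ), c ≠ 0 ∧ (∀ y, a c y = μ * b c y) ∧ ∀ x, a x x ≤ μ * b x x := by
  obtain ⟨c, μ, hc0, hc, hglob⟩ := exists_min_eigenpair (-a) b
    (fun x y => by simp [ha x y]) hb hbpos
  refine ⟨c, -μ, hc0, ?_, ?_⟩
  · intro y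
    have := hc y
    simp only [LinearMap.neg_apply] at this
    linarith
  · intro x
    have := hglob x
    simp only [LinearMap.neg_apply] at this
    linarith

end Crest.Agent.Helper21.Switch
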